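import Mathlib

/-!
Greedy expansion followed by a covering of the tail: from a covering of all integers below `T`
by sums of divisors of `P = T * R0` to short Egyptian fractions.
-/

open Finset

namespace Vale.Agent.Lib.P012b

/-- Every number below `T` is a sum of at most `k` distinct divisors of `P`. -/
def CovT (T P k : ℕ) : Prop :=
  ∀ m < T, ∃ D : Finset ℕ, (∀ d ∈ D, d ∣ P) ∧ #D ≤ k ∧ ∑ d ∈ D, d = m

/-- The least `e` with `F ≤ A * e`. -/
lemma exists_ceil {A F : ℕ} (hA : 1 ≤ A) (hF : 1 ≤ F) :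
    ∃ e, 1 ≤ e ∧ e ≤ F ∧ F ≤ A * e ∧ A * (e - 1) < F := by
  classical
  have hex : ∃ e, F ≤ A * e := ⟨F, Nat.le_mul_of_pos_left F hA⟩
  refine ⟨Nat.find hex, ?_, ?_, Nat.find_spec hex, ?_⟩
  · by_contra h
    have h0 : Nat.find hex = 0 := by omega
    have := Nat.find_spec hex
    rw [h0] at this
    omega
  · exact Nat.find_min' hex (Nat.le_mul_of_pos_left F hA)
  · have h1 : 1 ≤ Nat.find hex := by
      by_contra h
      have h0 : Nat.find hex = 0 := by omega
      have := Nat.find_spec hex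
      rw [h0] at this
      omega
    have := Nat.find_min hex (m := Nat.find hex - 1) (by omega)
    omega

/-- The state of the greedy algorithm. -/
structure GState (a b : ℕ) (S : Finset ℕ) (A F e : ℕ) : Prop where
  two_le : ∀ n ∈ S, 2 ≤ n
  le_e : ∀ n ∈ S, n ≤ e
  e_two : 2 ≤ e
  e_dvd : e ∣ F
  hF : F = b * ∏ n ∈ S, n
  hProd : ∏ n ∈ S, n ≤ e * (e - 1)
  hsum : (a : ℚ) / b = ∑ n ∈ S, (1 / (n : ℚ)) + (A : ℚ) / F
  hAb : A < b
  hsmall : A * (e * (e - 1)) < F
  Fpos : 0 < F

/-- One step of the greedy algorithm. -/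
lemma greedy_step {a b : ℕ} {S : Finset ℕ} {A F e : ℕ} (hs : GState a b S A F e) (hA : 1 ≤ A) :
    ∃ e' A', e * (e - 1) + 1 ≤ e' ∧ e' ≤ b * (e * (e - 1)) ∧ A' < A ∧
      ((A' = 0 ∧ (a : ℚ) / b = ∑ n ∈ insert e' S, (1 / (n : ℚ)) ∧ e' ∉ S) ∨
        (1 ≤ A' ∧ e' ∉ S ∧ GState a b (insert e' S) A' (F * e') e')) := by
  obtain ⟨e', h1, hle, h2, h3⟩ := exists_ceil hA hs.Fpos
  have he2 := hs.e_two
  have hee : 2 ≤ e * (e - 1) := by
    have : 1 ≤ e - 1 := by omega
    nlinarith
  have hlow : e * (e - 1) + 1 ≤ e' := by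
    by_contra hcon
    have hlt : e' ≤ e * (e - 1) := by omega
    have : F ≤ A * (e * (e - 1)) := h2.trans (Nat.mul_le_mul_left _ hlt)
    have := hs.hsmall
    omega
  have hup : e' ≤ b * (e * (e - 1)) := by
    refine hle.trans ?_
    rw [hs.hF]
    exact Nat.mul_le_mul_left _ hs.hProd
  have he'gt : e < e' := by
    have : e * 1 ≤ e * (e - 1) := Nat.mul_le_mul_left _ (by omega)
    omega
  have hnot : e' ∉ S := fun h => by
    have := hs.le_e e' h
    omega
  have hFpos := hs.Fpos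
  have he'pos : 0 < e' := by omega
  refine ⟨e', A * e' - F, hlow, hup, ?_, ?_⟩
  · -- numerator decreases
    have hh : A * e' = A * (e' - 1) + A := by
      obtain ⟨f, rfl⟩ : ∃ f, e' = f + 1 := ⟨e' - 1, by omega⟩
      simp [Nat.mul_succ]
    omega
  -- the new sum
  have hsum' : (a : ℚ) / b = ∑ n ∈ insert e' S, (1 / (n : ℚ)) + ((A * e' - F : ℕ) : ℚ) / ((F * e' : ℕ) : ℚ) := by
    rw [Finset.sum_insert hnot, hs.hsum]
    have hF0 : (F : ℚ) ≠ 0 := by positivity
    have he0 : (e' : ℚ) ≠ 0 := by positivity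
    rw [Nat.cast_sub h2]
    push_cast
    field_simp
    ring
  by_cases hz : A * e' - F = 0
  · left
    refine ⟨hz, ?_, hnot⟩
    rw [hsum', hz]
    simp
  · right
    refine ⟨by omega, hnot, ?_⟩
    have hA' : A * e' - F < A := by
      have hh : A * e' = A * (e' - 1) + A := by
        obtain ⟨f, rfl⟩ : ∃ f, e' = f + 1 := ⟨e' - 1, by omega⟩
        simp [Nat.mul_succ]
      omega
    have hprod : ∏ n ∈ insert e' S, n = e' * ∏ n ∈ S, n := Finset.prod_insert hnot
    refine ⟨?_, ?_, by omega, Dvd.intro_left _ rfl, ?_, ?_, hsum', ?_, ?_, ?_⟩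
    · intro n hn
      rcases Finset.mem_insert.mp hn with rfl | h
      · omega
      · exact hs.two_le n h
    · intro n hn
      rcases Finset.mem_insert.mp hn with rfl | h
      · exact le_rfl
      · have := hs.le_e n h
        omega
    · rw [hprod, hs.hF]
      ring
    · rw [hprod]
      have : ∏ n ∈ S, n ≤ e' - 1 := by
        have := hs.hProd
        omega
      calc e' * ∏ n ∈ S, n ≤ e' * (e' - 1) := Nat.mul_le_mul_left _ this
        _ = e' * (e' - 1) := rfl
    · exact lt_trans hA' hs.hAb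
    · -- smallness
      have h4 : (A * e' - F) * (e' - 1) ≤ A * (e' - 1) :=
        Nat.mul_le_mul_right _ hA'.le
      have h5 : (A * e' - F) * (e' - 1) < F := lt_of_le_of_lt h4 h3
      calc (A * e' - F) * (e' * (e' - 1)) = ((A * e' - F) * (e' - 1)) * e' := by ring
        _ < F * e' := Nat.mul_lt_mul_of_pos_right h5 he'pos
    · exact Nat.mul_pos hFpos he'pos

/-- The first step of the greedy algorithm. -/
lemma greedy_first {a b : ℕ} (ha : 1 ≤ a) (hab : a < b) :
    ∃ e' A', e' ≤ b ∧ ((A' = 0 ∧ (a : ℚ) / b = ∑ n ∈ ({e'} : Finset ℕ), (1 / (n : ℚ)) ∧ 2 ≤ e') ∨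
      (1 ≤ A' ∧ GState a b {e'} A' (b * e') e')) := by
  have hb : 1 ≤ b := by omega
  obtain ⟨e', h1, hle, h2, h3⟩ := exists_ceil ha hb
  have he2 : 2 ≤ e' := by
    by_contra h
    have : e' = 1 := by omega
    rw [this] at h2
    omega
  have hbq : (b : ℚ) ≠ 0 := by positivity
  have he0 : (e' : ℚ) ≠ 0 := by
    have : 0 < e' := by omega
    positivity
  have hsum : (a : ℚ) / b = ∑ n ∈ ({e'} : Finset ℕ), (1 / (n : ℚ))
      + ((a * e' - b : ℕ) : ℚ) / ((b * e' : ℕ) : ℚ) := by
    rw [Finset.sum_singleton, Nat.cast_sub h2]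
    push_cast
    field_simp
    ring
  refine ⟨e', a * e' - b, hle, ?_⟩
  by_cases hz : a * e' - b = 0
  · left
    refine ⟨hz, ?_, he2⟩
    rw [hsum, hz]
    simp
  · right
    refine ⟨by omega, ?_⟩
    have hlt : a * e' - b < a := by
      have hh : a * e' = a * (e' - 1) + a := by
        obtain ⟨f, rfl⟩ : ∃ f, e' = f + 1 := ⟨e' - 1, by omega⟩
        simp [Nat.mul_succ]
      omega
    have he1 : 1 ≤ e' - 1 := by omega
    refine ⟨?_, ?_, he2, Dvd.intro_left _ rfl, ?_, ?_, hsum, by omega, ?_, ?_⟩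
    · intro n hn
      rw [Finset.mem_singleton] at hn
      omega
    · intro n hn
      rw [Finset.mem_singleton] at hn
      omega
    · simp
    · simp only [Finset.prod_singleton]
      exact Nat.le_mul_of_pos_right _ (by omega)
    · have h4 : (a * e' - b) * (e' - 1) ≤ a * (e' - 1) := Nat.mul_le_mul_right _ hlt.le
      have h5 : (a * e' - b) * (e' - 1) < b := lt_of_le_of_lt h4 h3
      calc (a * e' - b) * (e' * (e' - 1)) = ((a * e' - b) * (e' - 1)) * e' := by ring
        _ < b * e' := Nat.mul_lt_mul_of_pos_right h5 (by omega)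
    · exact Nat.mul_pos hb (by omega)

/-- The outcome of the greedy algorithm after `i + 2` steps. -/
def Outcome (a b E0 i : ℕ) : Prop :=
  (∃ S : Finset ℕ, (∀ n ∈ S, 2 ≤ n) ∧ #S ≤ i + 2 ∧ (a : ℚ) / b = ∑ n ∈ S, (1 / (n : ℚ))) ∨
  (∃ S A F e, GState a b S A F e ∧ 1 ≤ A ∧ #S ≤ i + 2 ∧ E0 ≤ e ∧ e ≤ b * E0 ^ 2) ∨
  (∃ S A F e, GState a b S A F e ∧ 1 ≤ A ∧ #S ≤ i + 2 ∧ e < E0 ∧ 2 ^ (2 ^ i) ≤ e - 1)

lemma two_le_of_done {S : Finset ℕ} {e' : ℕ} {a b A F e : ℕ} (hs : GState a b S A F e)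
    (he' : e * (e - 1) + 1 ≤ e') : ∀ n ∈ insert e' S, 2 ≤ n := by
  intro n hn
  have he2 := hs.e_two
  have : 2 ≤ e * (e - 1) := by
    have : 1 ≤ e - 1 := by omega
    nlinarith
  rcases Finset.mem_insert.mp hn with rfl | h
  · omega
  · exact hs.two_le n h

lemma outcome_zero {a b E0 : ℕ} (ha : 1 ≤ a) (hab : a < b) (hE0 : 1 ≤ E0) : Outcome a b E0 0 := by
  obtain ⟨e₁, A₁, hle, h | h⟩ := greedy_first ha hab
  · left
    refine ⟨{e₁}, ?_, by simp, h.2.1⟩
    intro n hn
    rw [Finset.mem_singleton] at hn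
    omega
  · obtain ⟨hA₁, hs⟩ := h
    by_cases hbig : E0 ≤ e₁
    · right; left
      refine ⟨{e₁}, A₁, b * e₁, e₁, hs, hA₁, by simp, hbig, ?_⟩
      calc e₁ ≤ b := hle
        _ = b * 1 := by ring
        _ ≤ b * E0 ^ 2 := Nat.mul_le_mul_left _ (Nat.one_le_pow _ _ hE0)
    · obtain ⟨e', A', hlow, hup, _, h' | h'⟩ := greedy_step hs hA₁
      · left
        refine ⟨insert e' {e₁}, two_le_of_done hs hlow, ?_, h'.2.1⟩
        exact (Finset.card_insert_le _ _).trans (by simp)
      · obtain ⟨hA', hnot, hs'⟩ := h'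
        have he2 := hs.e_two
        have hcard : #(insert e' ({e₁} : Finset ℕ)) ≤ 2 :=
          (Finset.card_insert_le _ _).trans (by simp)
        have hge : 2 ≤ e₁ * (e₁ - 1) := by
          have : 1 ≤ e₁ - 1 := by omega
          nlinarith
        by_cases hbig' : E0 ≤ e'
        · right; left
          refine ⟨_, A', _, e', hs', hA', hcard, hbig', hup.trans ?_⟩
          apply Nat.mul_le_mul_left
          have : e₁ < E0 := by omega
          have h1 : e₁ - 1 ≤ E0 := by omega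
          calc e₁ * (e₁ - 1) ≤ E0 * E0 := Nat.mul_le_mul this.le h1
            _ = E0 ^ 2 := by ring
        · right; right
          refine ⟨_, A', _, e', hs', hA', hcard, by omega, ?_⟩
          norm_num
          omega

lemma outcome_succ {a b E0 i : ℕ} (h : Outcome a b E0 i) : Outcome a b E0 (i + 1) := by
  rcases h with ⟨S, h1, h2, h3⟩ | ⟨S, A, F, e, hs, hA, hc, h1, h2⟩ | ⟨S, A, F, e, hs, hA, hc, hlt, hg⟩
  · exact Or.inl ⟨S, h1, by omega, h3⟩
  · exact Or.inr (Or.inl ⟨S, A, F, e, hs, hA, by omega, h1, h2⟩)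
  · obtain ⟨e', A', hlow, hup, _, h' | h'⟩ := greedy_step hs hA
    · left
      refine ⟨insert e' S, two_le_of_done hs hlow, ?_, h'.2.1⟩
      have := Finset.card_insert_le e' S
      omega
    · obtain ⟨hA', hnot, hs'⟩ := h'
      have hcard : #(insert e' S) ≤ i + 1 + 2 := by
        have := Finset.card_insert_le e' S
        omega
      by_cases hbig' : E0 ≤ e'
      · right; left
        refine ⟨_, A', _, e', hs', hA', hcard, hbig', hup.trans ?_⟩
        apply Nat.mul_le_mul_left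
        have h1 : e - 1 ≤ E0 := by omega
        calc e * (e - 1) ≤ E0 * E0 := Nat.mul_le_mul hlt.le h1
          _ = E0 ^ 2 := by ring
      · right; right
        refine ⟨_, A', _, e', hs', hA', hcard, by omega, ?_⟩
        have he : e - 1 ≤ e := by omega
        have h3 : (2 ^ (2 ^ i)) * (2 ^ (2 ^ i)) ≤ e * (e - 1) :=
          Nat.mul_le_mul (hg.trans he) hg
        have h4 : (2 : ℕ) ^ (2 ^ (i + 1)) = (2 ^ (2 ^ i)) * (2 ^ (2 ^ i)) := by
          rw [pow_succ (2 : ℕ) i, pow_mul, sq]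
        rw [h4]
        omega

lemma outcome_all {a b E0 : ℕ} (ha : 1 ≤ a) (hab : a < b) (hE0 : 1 ≤ E0) (i : ℕ) :
    Outcome a b E0 i := by
  induction i with
  | zero => exact outcome_zero ha hab hE0
  | succ i ih => exact outcome_succ ih

/-- The tail of the expansion, given the covering. -/
lemma tail_expansion {T P R0 k a b E0 : ℕ} {S : Finset ℕ} {A F e : ℕ}
    (hP : P = T * R0) (hPpos : 0 < P) (hcov : CovT T P k) (hs : GState a b S A F e) (hA : 1 ≤ A)
    (hE0 : b * R0 ≤ E0) (he0 : E0 ≤ e) (heT : e ≤ T) :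
    ∃ S' : Finset ℕ, (∀ n ∈ S', 2 ≤ n) ∧ #S' ≤ #S + 2 * k ∧
      (a : ℚ) / b = ∑ n ∈ S', (1 / (n : ℚ)) := by
  classical
  have hepos : 0 < e := by have := hs.e_two; omega
  set m := A * P with hm
  set m₁ := m / e with hm₁
  set r := m % e with hr
  have hdecomp : e * m₁ + r = m := Nat.div_add_mod m e
  have hrlt : r < e := Nat.mod_lt _ hepos
  have hm₁lt : m₁ < T := by
    apply Nat.div_lt_of_lt_mul
    have hT : 0 < T := by
      rw [hP] at hPpos
      exact Nat.pos_of_mul_pos_right hPpos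
    have hR : 0 < R0 := by
      rw [hP] at hPpos
      exact Nat.pos_of_mul_pos_left hPpos
    calc m = A * (T * R0) := by rw [hm, hP]
      _ < b * (T * R0) := Nat.mul_lt_mul_of_pos_right hs.hAb (Nat.mul_pos hT hR)
      _ = (b * R0) * T := by ring
      _ ≤ e * T := Nat.mul_le_mul_right _ (hE0.trans he0)
  obtain ⟨D₁, hD₁, hc₁, hs₁⟩ := hcov r (lt_of_lt_of_le hrlt heT)
  obtain ⟨D₂, hD₂, hc₂, hs₂⟩ := hcov m₁ hm₁lt
  have hpos₁ : ∀ d ∈ D₁, 0 < d := fun d hd => Nat.pos_of_dvd_of_pos (hD₁ d hd) hPpos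
  have hpos₂ : ∀ d ∈ D₂, 0 < d := fun d hd => Nat.pos_of_dvd_of_pos (hD₂ d hd) hPpos
  set D := D₁ ∪ D₂.image (fun d => e * d) with hD
  have hinj : Set.InjOn (fun d => e * d) (D₂ : Set ℕ) := by
    intro x _ y _ h
    exact Nat.eq_of_mul_eq_mul_left hepos h
  have hle₁ : ∀ d ∈ D₁, d ≤ r := by
    intro d hd
    rw [← hs₁]
    exact Finset.single_le_sum (f := fun x => x) (fun _ _ => Nat.zero_le _) hd
  have hdisj : Disjoint D₁ (D₂.image fun d => e * d) := by
    rw [Finset.disjoint_left]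
    intro x hx hx'
    obtain ⟨y, hy, rfl⟩ := Finset.mem_image.mp hx'
    have h1 := hle₁ _ hx
    have h2 := hpos₂ y hy
    have h3 : e * 1 ≤ e * y := Nat.mul_le_mul_left _ h2
    omega
  have hDsum : ∑ d ∈ D, d = m := by
    rw [hD, Finset.sum_union hdisj, Finset.sum_image hinj, ← Finset.mul_sum, hs₁, hs₂]
    omega
  have hDcard : #D ≤ 2 * k := by
    have h1 : #D ≤ #D₁ + #(D₂.image fun d => e * d) := Finset.card_union_le _ _
    have h2 := Finset.card_image_le (s := D₂) (f := fun d => e * d)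
    omega
  set N := F * P with hN
  have hNpos : 0 < N := Nat.mul_pos hs.Fpos hPpos
  have hDdvd : ∀ d ∈ D, d ∣ N := by
    intro d hd
    rcases Finset.mem_union.mp hd with h | h
    · exact Dvd.dvd.mul_left (hD₁ d h) F
    · obtain ⟨y, hy, rfl⟩ := Finset.mem_image.mp h
      exact Nat.mul_dvd_mul hs.e_dvd (hD₂ y hy)
  have hDpos : ∀ d ∈ D, 0 < d := fun d hd => Nat.pos_of_dvd_of_pos (hDdvd d hd) hNpos
  set g : ℕ → ℕ := fun d => N / d with hg
  have hgmul : ∀ d ∈ D, g d * d = N := fun d hd => Nat.div_mul_cancel (hDdvd d hd)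
  have hginj : Set.InjOn g (D : Set ℕ) := by
    intro x hx y hy h
    have h1 := hgmul x hx
    have h2 := hgmul y hy
    have h' : g x = g y := h
    rw [h'] at h1
    have hgpos : 0 < g y := by
      have := hgmul y hy
      by_contra hcon
      have h0 : g y = 0 := by omega
      rw [h0] at this
      omega
    exact Nat.eq_of_mul_eq_mul_left hgpos (h1.trans h2.symm)
  have he2 := hs.e_two
  -- every tail denominator exceeds `e`
  have hgbig : ∀ d ∈ D, e < g d := by
    intro d hd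
    have h1 : d ≤ m := by
      rw [← hDsum]
      exact Finset.single_le_sum (f := fun x => x) (fun _ _ => Nat.zero_le _) hd
    have h2 : A * e < F := by
      have h3 : A * e ≤ A * (e * (e - 1)) := by
        apply Nat.mul_le_mul_left
        exact Nat.le_mul_of_pos_right _ (by omega)
      exact lt_of_le_of_lt h3 hs.hsmall
    by_contra hcon
    have h4 : g d ≤ e := by omega
    have h5 : N ≤ e * d := by
      rw [← hgmul d hd]
      exact Nat.mul_le_mul_right _ h4
    have h6 : e * d ≤ e * (A * P) := Nat.mul_le_mul_left _ h1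
    have h7 : F * P ≤ (A * e) * P := by
      calc F * P = N := rfl
        _ ≤ e * d := h5
        _ ≤ e * (A * P) := h6
        _ = (A * e) * P := by ring
    have h8 := Nat.le_of_mul_le_mul_right h7 hPpos
    omega
  have hdisjS : Disjoint S (D.image g) := by
    rw [Finset.disjoint_left]
    intro x hx hx'
    obtain ⟨y, hy, rfl⟩ := Finset.mem_image.mp hx'
    have h1 := hs.le_e _ hx
    have h2 := hgbig y hy
    omega
  refine ⟨S ∪ D.image g, ?_, ?_, ?_⟩
  · intro n hn
    rcases Finset.mem_union.mp hn with h | h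
    · exact hs.two_le n h
    · obtain ⟨y, hy, rfl⟩ := Finset.mem_image.mp h
      have := hgbig y hy
      omega
  · have h1 := Finset.card_union_le S (D.image g)
    have h2 := Finset.card_image_le (s := D) (f := g)
    omega
  · rw [Finset.sum_union hdisjS, Finset.sum_image hginj, hs.hsum]
    congr 1
    have hNq : (N : ℚ) ≠ 0 := by positivity
    have hterm : ∀ d ∈ D, (1 / ((g d : ℕ) : ℚ)) = (d : ℚ) / N := by
      intro d hd
      have h1 : ((g d : ℕ) : ℚ) * d = N := by exact_mod_cast hgmul d hd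
      have hd0 : (d : ℚ) ≠ 0 := by
        have := hDpos d hd
        positivity
      have hg0 : ((g d : ℕ) : ℚ) ≠ 0 := by
        intro h0
        rw [h0, zero_mul] at h1
        exact hNq h1.symm
      field_simp
      linarith
    rw [Finset.sum_congr rfl hterm, ← Finset.sum_div]
    have hsumq : (∑ d ∈ D, (d : ℚ)) = ((m : ℕ) : ℚ) := by
      rw [← hDsum]
      push_cast
      rfl
    rw [hsumq, hm, hN]
    have hFq : (F : ℚ) ≠ 0 := by
      have := hs.Fpos
      positivity
    have hPq : (P : ℚ) ≠ 0 := by positivity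
    push_cast
    field_simp

/-- The main reduction: a covering of all integers below `T` by divisors of `P = T * R0` yields short
Egyptian fractions for all denominators `b` with `b * (b * R0) ^ 2 ≤ T`. -/
theorem egyptian_of_richCov {T P R0 k a b J : ℕ} (hP : P = T * R0) (hR : 1 ≤ R0) (hT0 : 0 < T)
    (hcov : CovT T P k) (ha : 1 ≤ a) (hab : a < b) (hE : b * R0 ≤ 2 ^ (2 ^ J))
    (hTb : b * (b * R0) ^ 2 ≤ T) :
    ∃ S : Finset ℕ, (∀ n ∈ S, 2 ≤ n) ∧ #S ≤ J + 2 + 2 * k ∧
      ∑ n ∈ S, (1 / (n : ℚ)) = (a : ℚ) / b := by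
  have hb : 1 ≤ b := by omega
  have hE0 : 1 ≤ b * R0 := Nat.mul_pos hb hR
  have hPpos : 0 < P := by
    rw [hP]
    exact Nat.mul_pos hT0 hR
  rcases outcome_all ha hab hE0 J with ⟨S, h1, h2, h3⟩ | ⟨S, A, F, e, hs, hA, hc, h1, h2⟩ |
    ⟨S, A, F, e, hs, hA, hc, hlt, hg⟩
  · exact ⟨S, h1, by omega, h3.symm⟩
  · obtain ⟨S', h3, h4, h5⟩ := tail_expansion hP hPpos hcov hs hA le_rfl h1 (h2.trans hTb)
    exact ⟨S', h3, by omega, h5.symm⟩
  · exfalso
    have h3 : e < 2 ^ (2 ^ J) := lt_of_lt_of_le hlt hE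
    omega

end Vale.Agent.Lib.P012b
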