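import Mathlib
import Vale.Agent.Lib.P012.Stage

open Finset
open Vale.Agent.Lib.P012

namespace Vale.Agent.Lib.P012b

/-- The digit lemma for one stage, for general sets `A`, `B` of prescribed size. -/
theorem stage_digits' (e : ℕ) (he : 7 ≤ e) (G0 s : ℕ) (hspos : 0 < s)
    (hbs : (7 * e + 28) * s ≤ 2 ^ e)
    (h3 : 7 + (4 * (7 * e + 28) + 1) * s ≤ 6 * G0)
    (A B : Finset ℕ) (cA : #A = 2 ^ G0) (cB : #B = 2 ^ G0)
    (pA : ∀ x ∈ A, 0 < x ∧ x ≤ 2 ^ ((7 * e + 25) * 2 ^ e))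
    (pB : ∀ x ∈ B, 0 < x ∧ x ≤ 2 ^ ((7 * e + 25) * 2 ^ e))
    (P : Finset ℕ) (hP : ∀ p ∈ P, p.Prime ∧ 2 ^ (7 * e + 25) < p ∧ p ≤ 2 ^ (7 * e + 28))
    (hs : s ≤ #P)
    (hP2 : 2 ^ (7 * e + 25) ≤ 4 * (7 * e + 28) * (#P - s)) :
    ∃ S ⊆ P, #S = s ∧ ∀ c : ℤ, ∃ τ : Fin 6 → ℕ × ℕ,
      (∀ i, (τ i).1 ∈ A ∧ (τ i).2 ∈ B) ∧
      ((∏ p ∈ S, p : ℕ) : ℤ) ∣
        (∑ i : Fin 6, (((i : ℕ) + 1 : ℕ) : ℤ) * ((τ i).1 : ℤ) * ((τ i).2 : ℤ)) - c := by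
  classical
  set g := 2 ^ e with hg
  set a := 7 * e + 25 with ha
  set b := 7 * e + 28 with hb
  have hgb : b ≤ g := two_pow_ge e he
  have hbpos : 0 < b := by omega
  have hsg : s ≤ g := by
    calc s ≤ b * s := Nat.le_mul_of_pos_left s hbpos
      _ ≤ g := hbs
  have hg7 : 7 ≤ g := by omega
  set X := pairsX A B with hX
  set A2 : ℝ := 2 ^ e with hA2
  have hA2pos : 0 < A2 := by positivity
  have hA2one : 1 ≤ A2 := one_le_pow₀ (by norm_num)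
  have hgcast : (g : ℝ) = A2 := by rw [hg, hA2]; push_cast; ring
  set β : ℝ := 2 ^ a / (4 * A2 ^ 2) with hβdef
  have hβpos : 0 < β := by positivity
  set t : ℝ := 1 / (s : ℝ) with ht
  have hspos' : (0 : ℝ) < s := by exact_mod_cast hspos
  have htnn : 0 ≤ t := by positivity
  set M := #P - s with hM
  have hMs : M + s ≤ #P := by omega
  -- the number of prime divisors
  have hz : ∀ i ∈ X, #(P.filter fun p : ℕ => (p : ℤ) ∣ pairF i) ≤ g := by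
    have hPa : ∀ p ∈ P, p.Prime ∧ 2 ^ a < p := fun p hp => ⟨(hP p hp).1, (hP p hp).2.1⟩
    intro i hi
    have hipos : 0 < a := by omega
    rcases i with ⟨x, y⟩ | ⟨x, y⟩
    · have hi' : (x, y) ∈ A.offDiag := Finset.inl_mem_disjSum.mp hi
      obtain ⟨hx, hy, hxy⟩ := Finset.mem_offDiag.mp hi'
      apply card_prime_dvd_le P a g hPa hipos
      · simp only [pairF, Sum.elim_inl]
        intro h
        apply hxy
        omega
      · simp only [pairF, Sum.elim_inl]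
        exact natAbs_sub_lt (pA x hx).1 (pA y hy).1 (pA x hx).2 (pA y hy).2
    · have hi' : (x, y) ∈ B.offDiag := Finset.inr_mem_disjSum.mp hi
      obtain ⟨hx, hy, hxy⟩ := Finset.mem_offDiag.mp hi'
      apply card_prime_dvd_le P a g hPa hipos
      · simp only [pairF, Sum.elim_inr]
        intro h
        apply hxy
        omega
      · simp only [pairF, Sum.elim_inr]
        exact natAbs_sub_lt (pB x hx).1 (pB y hy).1 (pB x hx).2 (pB y hy).2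
  -- the room
  have hroom : β * (g : ℝ) ≤ t * (M : ℝ) := by
    have h1 : ((2 : ℝ) ^ a) ≤ 4 * (b : ℝ) * (M : ℝ) := by exact_mod_cast hP2
    have h2 : (b : ℝ) * (s : ℝ) ≤ A2 := by
      rw [← hgcast]
      exact_mod_cast hbs
    have hMnn : (0 : ℝ) ≤ M := by positivity
    rw [hgcast, hβdef, ht]
    rw [div_mul_eq_mul_div, one_div, inv_mul_eq_div, div_le_div_iff₀ (by positivity) hspos']
    have : (2 : ℝ) ^ a * A2 * s ≤ (4 * (b : ℝ) * M) * A2 * s := by gcongr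
    calc (2 : ℝ) ^ a * A2 * s ≤ (4 * (b : ℝ) * M) * A2 * s := this
      _ = 4 * M * A2 * ((b : ℝ) * s) := by ring
      _ ≤ 4 * M * A2 * A2 := by gcongr
      _ = _ := by ring
  obtain ⟨S, hSP, hSc, hSpot⟩ := exists_good X pairF P g s M hβpos.le htnn hs hMs hz hroom
  refine ⟨S, hSP, hSc, ?_⟩
  have hS : ∀ p ∈ S, p.Prime ∧ 6 < p := by
    intro p hp
    obtain ⟨h1, h2, _⟩ := hP p (hSP hp)
    refine ⟨h1, ?_⟩
    have h8 : (8 : ℕ) ≤ 2 ^ a := by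
      calc (8 : ℕ) = 2 ^ 3 := by norm_num
        _ ≤ 2 ^ a := Nat.pow_le_pow_right (by norm_num) (by omega)
    omega
  -- bound on the potential
  set Gr : ℝ := 2 ^ G0 with hGr
  have hGrpos : 0 < Gr := by positivity
  have cAr : ((#A : ℕ) : ℝ) = Gr := by rw [cA, hGr]; push_cast; ring
  have cBr : ((#B : ℕ) : ℝ) = Gr := by rw [cB, hGr]; push_cast; ring
  have hXcard : ((#X : ℕ) : ℝ) ≤ 2 * Gr ^ 2 := by
    have := card_pairsX_le A B
    have h' : ((#X : ℕ) : ℝ) ≤ ((#A : ℕ) : ℝ) * ((#A : ℕ) : ℝ) + ((#B : ℕ) : ℝ) * ((#B : ℕ) : ℝ) := by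
      exact_mod_cast this
    rw [cAr, cBr] at h'
    linarith
  have hpow3 : (1 + t) ^ s ≤ 3 := one_add_inv_pow_le_three s hspos
  have hpot6 : pot X pairF β S ≤ 6 * Gr ^ 2 := by
    calc _ ≤ ((#X : ℕ) : ℝ) * (1 + t) ^ s := hSpot
      _ ≤ (2 * Gr ^ 2) * 3 := by gcongr
      _ = _ := by ring
  set μ : ℝ := β⁻¹ with hμ
  have hμpos : 0 < μ := inv_pos.mpr hβpos
  have hcnt : ∀ T ⊆ S, ((cnt X pairF T : ℕ) : ℝ) ≤ 6 * Gr ^ 2 * μ ^ #T := by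
    intro T hT
    have h1 := (cnt_mul_le_pot X pairF hβpos.le hT).trans hpot6
    have h2 : (β ^ #T) * (μ ^ #T) = 1 := by
      rw [← mul_pow, hμ, mul_inv_cancel₀ hβpos.ne', one_pow]
    calc ((cnt X pairF T : ℕ) : ℝ) = ((cnt X pairF T : ℕ) : ℝ) * β ^ #T * μ ^ #T := by
          rw [mul_assoc, h2, mul_one]
      _ ≤ 6 * Gr ^ 2 * μ ^ #T := by gcongr
  -- numeric conditions
  set Y : ℝ := 2 ^ b with hY
  have hYone : 1 ≤ Y := one_le_pow₀ (by norm_num)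
  have hSY : ∀ p ∈ S, (p : ℝ) ≤ Y := by
    intro p hp
    have := (hP p (hSP hp)).2.2
    rw [hY]
    exact_mod_cast this
  have hn1 : 128 * (1 + Y ^ 4) ^ #S ≤ Gr ^ 6 := by
    rw [hSc]
    have h1 : 1 + Y ^ 4 ≤ 2 * Y ^ 4 := by
      have : 1 ≤ Y ^ 4 := one_le_pow₀ hYone
      linarith
    have h2 : (2 : ℝ) * Y ^ 4 = 2 ^ (4 * b + 1) := by
      rw [hY, ← pow_mul, pow_succ (2 : ℝ) (4 * b), mul_comm b 4]
      ring
    calc 128 * (1 + Y ^ 4) ^ s ≤ 128 * (2 ^ (4 * b + 1)) ^ s := by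
          rw [← h2]
          gcongr
      _ = (2 : ℝ) ^ (7 + (4 * b + 1) * s) := by
          have h128 : (128 : ℝ) = 2 ^ 7 := by norm_num
          rw [h128, pow_add (2 : ℝ) 7, pow_mul (2 : ℝ) (4 * b + 1) s]
      _ ≤ (2 : ℝ) ^ (6 * G0) := pow_le_pow_right₀ (by norm_num) h3
      _ = Gr ^ 6 := by rw [hGr, ← pow_mul, mul_comm]
  have hε : Y ^ 4 * μ ^ 6 = 1 / (2 ^ 26 * A2 ^ 2) := by
    have e1 : Y = 2 ^ 28 * A2 ^ 7 := by
      rw [hY, hA2, hb, ← pow_mul, ← pow_add]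
      congr 1
      ring
    have e2 : (2 : ℝ) ^ a = 2 ^ 25 * A2 ^ 7 := by
      rw [hA2, ha, ← pow_mul, ← pow_add]
      congr 1
      ring
    rw [hμ, hβdef, e1, e2]
    field_simp
    norm_num
  have hn2 : 2985984 * ((1 + Y ^ 4 * μ ^ 6) ^ #S - 1) ≤ 1 / 2 := by
    rw [hSc]
    have hεnn : 0 ≤ Y ^ 4 * μ ^ 6 := by positivity
    have hsreal : (s : ℝ) ≤ A2 := by
      rw [← hgcast]
      exact_mod_cast hsg
    have hsε : (s : ℝ) * (Y ^ 4 * μ ^ 6) ≤ 1 / 2 ^ 26 := by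
      rw [hε]
      calc (s : ℝ) * (1 / (2 ^ 26 * A2 ^ 2)) ≤ A2 * (1 / (2 ^ 26 * A2 ^ 2)) := by gcongr
        _ = 1 / (2 ^ 26 * A2) := by field_simp
        _ ≤ 1 / (2 ^ 26) := by
          apply one_div_le_one_div_of_le (by positivity)
          nlinarith [pow_pos (by norm_num : (0:ℝ) < 2) 26]
    have hhalf : (s : ℝ) * (Y ^ 4 * μ ^ 6) ≤ 1 / 2 := hsε.trans (by norm_num)
    have := one_add_pow_le hεnn s hhalf
    have h3 : (1 + Y ^ 4 * μ ^ 6) ^ s - 1 ≤ 2 * (1 / 2 ^ 26) := by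
      calc _ ≤ 2 * ((s : ℝ) * (Y ^ 4 * μ ^ 6)) := by linarith
        _ ≤ _ := by gcongr
    calc 2985984 * ((1 + Y ^ 4 * μ ^ 6) ^ s - 1) ≤ 2985984 * (2 * (1 / 2 ^ 26)) := by gcongr
      _ ≤ 1 / 2 := by norm_num
  have hEA : ∀ T ∈ S.powerset.filter (· ≠ ∅), (0 : ℝ) ≤ ((pairEnergy T A : ℕ) : ℝ) ∧
      ((pairEnergy T A : ℕ) : ℝ) ≤ Gr + 6 * Gr ^ 2 * μ ^ #T := by
    intro T hT
    have hTS : T ⊆ S := Finset.mem_powerset.mp (Finset.mem_filter.mp hT).1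
    refine ⟨by positivity, ?_⟩
    have h1 : ((pairEnergy T A : ℕ) : ℝ) ≤ ((#A : ℕ) : ℝ) + ((cnt X pairF T : ℕ) : ℝ) := by
      exact_mod_cast pairEnergy_le_left A B T
    rw [cAr] at h1
    linarith [hcnt T hTS]
  have hEB : ∀ T ∈ S.powerset.filter (· ≠ ∅), (0 : ℝ) ≤ ((pairEnergy T B : ℕ) : ℝ) ∧
      ((pairEnergy T B : ℕ) : ℝ) ≤ Gr + 6 * Gr ^ 2 * μ ^ #T := by
    intro T hT
    have hTS : T ⊆ S := Finset.mem_powerset.mp (Finset.mem_filter.mp hT).1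
    refine ⟨by positivity, ?_⟩
    have h1 : ((pairEnergy T B : ℕ) : ℝ) ≤ ((#B : ℕ) : ℝ) + ((cnt X pairF T : ℕ) : ℝ) := by
      exact_mod_cast pairEnergy_le_right A B T
    rw [cBr] at h1
    linarith [hcnt T hTS]
  have hH := numeric_bound S hGrpos hμpos.le (by positivity) hSY
    (fun T => ((pairEnergy T A : ℕ) : ℝ)) (fun T => ((pairEnergy T B : ℕ) : ℝ)) hEA hEB hn1 hn2
  intro c
  apply cover hS A B
  rw [cAr, cBr]
  exact hH

end Vale.Agent.Lib.P012b
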