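import Mathlib
import Vale.Agent.Lib.P012b.Stage2
import Vale.Agent.Lib.P012b.Greedy

open Finset
open Vale.Agent.Lib.P012

namespace Vale.Agent.Lib.P012b

lemma CovT.mono {T N N' k k' : ℕ} (h : CovT T N k) (hN : N ∣ N') (hk : k ≤ k') : CovT T N' k' := by
  intro m hm
  obtain ⟨D, hD, hc, hs⟩ := h m hm
  exact ⟨D, fun d hd => (hD d hd).trans hN, hc.trans hk, hs⟩

/-- The general extension step: write `m = (digits) + Q * m'`. -/
lemma covT_mul {T N Q k c : ℕ} (hQ : 0 < Q) (hcov : CovT T N k)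
    (hdig : ∀ m < Q * T, T ≤ m → ∃ D : Finset ℕ, ∃ m' < T,
      (∀ d ∈ D, d ∣ Q * N) ∧ (∀ d ∈ D, ¬ Q ∣ d) ∧ #D ≤ c ∧ m = ∑ d ∈ D, d + Q * m') :
    CovT (Q * T) (Q * N) (k + c) := by
  classical
  intro m hm
  by_cases hmN : m < T
  · obtain ⟨D, hD, hc, hs⟩ := hcov m hmN
    exact ⟨D, fun d hd => Dvd.dvd.mul_left (hD d hd) Q, by omega, hs⟩
  · obtain ⟨D, m', hm', hD, hD2, hc, hs⟩ := hdig m hm (by omega)
    obtain ⟨D', hD', hc', hs'⟩ := hcov m' hm'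
    have hinj : Set.InjOn (fun d => Q * d) (D' : Set ℕ) := by
      intro x _ y _ h
      exact Nat.eq_of_mul_eq_mul_left hQ h
    have hdisj : Disjoint D (D'.image fun d => Q * d) := by
      rw [Finset.disjoint_left]
      intro x hx hx'
      obtain ⟨y, _, rfl⟩ := Finset.mem_image.mp hx'
      exact hD2 _ hx (Dvd.intro _ rfl)
    refine ⟨D ∪ D'.image fun d => Q * d, ?_, ?_, ?_⟩
    · intro d hd
      rcases Finset.mem_union.mp hd with h | h
      · exact hD d h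
      · obtain ⟨y, hy, rfl⟩ := Finset.mem_image.mp h
        exact Nat.mul_dvd_mul_left Q (hD' y hy)
    · have h1 := Finset.card_union_le D (D'.image fun d => Q * d)
      have h2 := Finset.card_image_le (s := D') (f := fun d => Q * d)
      omega
    · rw [Finset.sum_union hdisj, Finset.sum_image hinj, ← Finset.mul_sum, hs', hs]

/-- One stage of the covering recursion, with general digit sets. -/
theorem covT_stage (e : ℕ) (he : 7 ≤ e) (G0 s L : ℕ) (hspos : 0 < s)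
    (hbs : (7 * e + 28) * s ≤ 2 ^ e)
    (h3 : 7 + (4 * (7 * e + 28) + 1) * s ≤ 6 * G0)
    (A B : Finset ℕ) (cA : #A = 2 ^ G0) (cB : #B = 2 ^ G0)
    (pA : ∀ x ∈ A, 0 < x ∧ x ≤ L ∧ Nat.Coprime 60 x)
    (pB : ∀ x ∈ B, 0 < x ∧ x ≤ L ∧ Nat.Coprime 60 x)
    (hL : L ≤ 2 ^ ((7 * e + 25) * 2 ^ e))
    (P : Finset ℕ) (hP : ∀ p ∈ P, p.Prime ∧ 2 ^ (7 * e + 25) < p ∧ p ≤ 2 ^ (7 * e + 28))
    (hPA : ∀ p ∈ P, ∀ x ∈ A, ¬ p ∣ x) (hPB : ∀ p ∈ P, ∀ x ∈ B, ¬ p ∣ x)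
    (hP2 : 2 ^ (7 * e + 25) ≤ 4 * (7 * e + 28) * (#P - s))
    (T N k : ℕ) (hcov : CovT T N k) (hT : 21 * L * L ≤ T)
    (hdvd : ∀ x ∈ A, ∀ y ∈ B, 60 * x * y ∣ N) :
    ∃ S ⊆ P, #S = s ∧ CovT ((∏ p ∈ S, p) * T) ((∏ p ∈ S, p) * N) (k + 6) := by
  classical
  have hs : s ≤ #P := by
    by_contra h
    have h0 : #P - s = 0 := by omega
    rw [h0, Nat.mul_zero] at hP2
    have : 0 < 2 ^ (7 * e + 25) := by positivity
    omega
  obtain ⟨S, hSP, hSc, hdig⟩ := stage_digits' e he G0 s hspos hbs h3 A B cA cB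
    (fun x hx => ⟨(pA x hx).1, (pA x hx).2.1.trans hL⟩)
    (fun x hx => ⟨(pB x hx).1, (pB x hx).2.1.trans hL⟩) P hP hs hP2
  refine ⟨S, hSP, hSc, ?_⟩
  have hSprime : ∀ p ∈ S, p.Prime := fun p hp => (hP p (hSP hp)).1
  have hQ : 0 < ∏ p ∈ S, p := prod_pos_of_prime hSprime
  have hspos' : 0 < #S := by omega
  obtain ⟨p0, hp0⟩ := Finset.card_pos.mp hspos'
  have hp0' := hP p0 (hSP hp0)
  have hp06 : 6 < p0 := by
    have : 2 ^ 3 ≤ 2 ^ (7 * e + 25) := Nat.pow_le_pow_right (by norm_num) (by omega)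
    omega
  have hp0Q : p0 ∣ ∏ p ∈ S, p := Finset.dvd_prod_of_mem _ hp0
  apply covT_mul hQ hcov
  intro m hm hmN
  obtain ⟨τ, hτ, hτd⟩ := hdig (m : ℤ)
  set f : Fin 6 → ℕ := fun i => ((i : ℕ) + 1) * (τ i).1 * (τ i).2 with hf
  have hsmall : ∀ i : Fin 6, ((i : ℕ) + 1) ∣ 60 := by
    intro i
    have := i.isLt
    have h : (i : ℕ) + 1 ≤ 6 := by omega
    interval_cases (i : ℕ) <;> norm_num
  have hcop : ∀ i : Fin 6, ∀ x, Nat.Coprime 60 x → Nat.Coprime ((i : ℕ) + 1) x :=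
    fun i x hx => Nat.Coprime.coprime_dvd_left (hsmall i) hx
  have hfinj : Function.Injective f := by
    intro i j hij
    have h1 : Nat.Coprime ((i : ℕ) + 1) ((τ j).1 * (τ j).2) :=
      Nat.Coprime.mul_right (hcop i _ (pA _ (hτ j).1).2.2) (hcop i _ (pB _ (hτ j).2).2.2)
    have h2 : Nat.Coprime ((j : ℕ) + 1) ((τ i).1 * (τ i).2) :=
      Nat.Coprime.mul_right (hcop j _ (pA _ (hτ i).1).2.2) (hcop j _ (pB _ (hτ i).2).2.2)
    have h3 : ((i : ℕ) + 1) ∣ ((j : ℕ) + 1) * ((τ j).1 * (τ j).2) := by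
      refine ⟨(τ i).1 * (τ i).2, ?_⟩
      have : f i = f j := hij
      simp only [hf] at this
      rw [mul_assoc, mul_assoc] at this
      exact this.symm
    have h4 : ((j : ℕ) + 1) ∣ ((i : ℕ) + 1) * ((τ i).1 * (τ i).2) := by
      refine ⟨(τ j).1 * (τ j).2, ?_⟩
      have : f i = f j := hij
      simp only [hf] at this
      rw [mul_assoc, mul_assoc] at this
      exact this
    have h5 := h1.dvd_of_dvd_mul_right h3
    have h6 := h2.dvd_of_dvd_mul_right h4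
    have h7 := Nat.dvd_antisymm h5 h6
    apply Fin.ext
    omega
  have hfle : ∀ i, f i ≤ ((i : ℕ) + 1) * (L * L) := by
    intro i
    simp only [hf]
    rw [mul_assoc]
    apply Nat.mul_le_mul_left
    exact Nat.mul_le_mul (pA _ (hτ i).1).2.1 (pB _ (hτ i).2).2.1
  have hsumle : ∑ i : Fin 6, f i ≤ 21 * L * L := by
    calc ∑ i : Fin 6, f i ≤ ∑ i : Fin 6, ((i : ℕ) + 1) * (L * L) := Finset.sum_le_sum fun i _ => hfle i
      _ = 21 * (L * L) := by
        rw [← Finset.sum_mul]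
        congr 1
      _ = 21 * L * L := by ring
  have hsm : ∑ i : Fin 6, f i ≤ m := by omega
  have hdiv : (∏ p ∈ S, p) ∣ m - ∑ i : Fin 6, f i := by
    have h1 : ((∏ p ∈ S, p : ℕ) : ℤ) ∣ ((m - ∑ i : Fin 6, f i : ℕ) : ℤ) := by
      rw [Nat.cast_sub hsm]
      have h2 : ((∑ i : Fin 6, f i : ℕ) : ℤ) =
          ∑ i : Fin 6, (((i : ℕ) + 1 : ℕ) : ℤ) * ((τ i).1 : ℤ) * ((τ i).2 : ℤ) := by
        simp only [hf]
        push_cast
        rfl
      rw [h2]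
      have := (dvd_sub_comm).mp hτd
      exact this
    exact_mod_cast h1
  obtain ⟨m', hm'⟩ := hdiv
  have hm'lt : m' < T := by
    have h1 : (∏ p ∈ S, p) * m' ≤ m := by rw [← hm']; omega
    have h2 : (∏ p ∈ S, p) * m' < (∏ p ∈ S, p) * T := lt_of_le_of_lt h1 hm
    exact Nat.lt_of_mul_lt_mul_left h2
  refine ⟨Finset.univ.image f, m', hm'lt, ?_, ?_, ?_, ?_⟩
  · intro d hd
    obtain ⟨i, _, rfl⟩ := Finset.mem_image.mp hd
    apply Dvd.dvd.mul_left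
    refine dvd_trans ?_ (hdvd _ (hτ i).1 _ (hτ i).2)
    simp only [hf]
    exact Nat.mul_dvd_mul (Nat.mul_dvd_mul (hsmall i) dvd_rfl) dvd_rfl
  · intro d hd hdQ
    obtain ⟨i, _, rfl⟩ := Finset.mem_image.mp hd
    have h1 : p0 ∣ f i := hp0Q.trans hdQ
    simp only [hf] at h1
    rcases (Nat.Prime.dvd_mul hp0'.1).mp h1 with h2 | h2
    · rcases (Nat.Prime.dvd_mul hp0'.1).mp h2 with h3 | h3
      · have := Nat.le_of_dvd (by omega) h3
        have := i.isLt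
        omega
      · exact hPA p0 (hSP hp0) _ (hτ i).1 h3
    · exact hPB p0 (hSP hp0) _ (hτ i).2 h2
  · have := Finset.card_image_le (s := (Finset.univ : Finset (Fin 6))) (f := f)
    simpa using this
  · rw [Finset.sum_image (fun x _ y _ h => hfinj h)]
    omega

end Vale.Agent.Lib.P012b
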