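import Mathlib
import Vale.Agent.Lib.P012b.CovStage
import Vale.Agent.Lib.P012.Cov
import Vale.Agent.Lib.P012.Count

open Finset
open Vale.Agent.Lib.P012

namespace Vale.Agent.Lib.P012b

/-- Products of exactly `t` members of `H`. -/
def spz (H : Finset ℕ) (t : ℕ) : Finset ℕ := (H.powersetCard t).image (fun T => ∏ p ∈ T, p)

lemma card_spz {H : Finset ℕ} (hH : ∀ p ∈ H, p.Prime) (t : ℕ) : #(spz H t) = (#H).choose t := by
  unfold spz
  rw [Finset.card_image_of_injOn, Finset.card_powersetCard]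
  intro T hT T' hT' h
  have hT1 : ∀ p ∈ T, p.Prime := fun p hp =>
    hH p ((Finset.mem_powersetCard.mp (Finset.mem_coe.mp hT)).1 hp)
  have hT2 : ∀ p ∈ T', p.Prime := fun p hp =>
    hH p ((Finset.mem_powersetCard.mp (Finset.mem_coe.mp hT')).1 hp)
  have h' : ∏ p ∈ T, p = ∏ p ∈ T', p := h
  rw [← Nat.primeFactors_prod hT1, ← Nat.primeFactors_prod hT2, h']

lemma mem_spz_dvd {H : Finset ℕ} {t x : ℕ} (hx : x ∈ spz H t) : x ∣ ∏ p ∈ H, p := by
  unfold spz at hx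
  obtain ⟨T, hT, rfl⟩ := Finset.mem_image.mp hx
  exact Finset.prod_dvd_prod_of_subset _ _ _ (Finset.mem_powersetCard.mp hT).1

lemma mem_spz_le {H : Finset ℕ} {t x B : ℕ} (hH : ∀ p ∈ H, p ≤ 2 ^ B) (hx : x ∈ spz H t) :
    x ≤ 2 ^ (B * t) := by
  unfold spz at hx
  obtain ⟨T, hT, rfl⟩ := Finset.mem_image.mp hx
  obtain ⟨h1, h2⟩ := Finset.mem_powersetCard.mp hT
  have := prod_le_two_pow (H := T) (B := B) fun p hp => hH p (h1 hp)
  rwa [h2] at this

lemma choose_mul_ge (m t : ℕ) : m ^ t ≤ (m * t).choose t := by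
  induction t with
  | zero => simp
  | succ t ih =>
    have h1 : (m * (t + 1)).choose (t + 1) = ∑ ij ∈ Finset.HasAntidiagonal.antidiagonal (t + 1),
        (m * t).choose ij.1 * m.choose ij.2 := by
      rw [Nat.mul_succ, Nat.add_choose_eq]
    have hmem : (t, 1) ∈ Finset.HasAntidiagonal.antidiagonal (t + 1) := by simp
    have h2 := Finset.single_le_sum (f := fun ij : ℕ × ℕ => (m * t).choose ij.1 * m.choose ij.2)
      (fun _ _ => Nat.zero_le _) hmem
    simp only [Nat.choose_one_right] at h2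
    rw [h1, pow_succ]
    exact (Nat.mul_le_mul_right _ ih).trans h2

lemma two_pow_le_choose (w j : ℕ) : 2 ^ (w * 2 ^ j) ≤ (2 ^ (w + j)).choose (2 ^ j) := by
  have h := choose_mul_ge (2 ^ w) (2 ^ j)
  rw [← pow_mul, ← pow_add] at h
  exact h

lemma f_lower (w : ℕ) (hw : 1 ≤ w) (j : ℕ) (hj : 4 ≤ j) : 16 * (w + j) ≤ w * 2 ^ j + 64 := by
  induction j, hj using Nat.le_induction with
  | base =>
    norm_num
    omega
  | succ n hn ih =>
    have : w * 2 ^ (n + 1) = 2 * (w * 2 ^ n) := by ring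
    omega

lemma f_upper (w : ℕ) (hw : 1 ≤ w) (j : ℕ) : 2 * (w * 2 ^ j) ≤ 2 ^ (w + j) := by
  obtain ⟨v, rfl⟩ : ∃ v, w = v + 1 := ⟨w - 1, by omega⟩
  have h1 : v < 2 ^ v := Nat.lt_two_pow_self
  have h2 : v + 1 ≤ 2 ^ v := h1
  calc 2 * ((v + 1) * 2 ^ j) ≤ 2 * (2 ^ v * 2 ^ j) := by gcongr
    _ = 2 ^ (v + 1 + j) := by ring

/-- The numerical facts about the number of primes of a stage. -/
lemma sched_facts (e w j : ℕ) (he : 8 ≤ e) (hw : 1 ≤ w) (hj : 4 ≤ j) (hwj : w + j = e) :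
    0 < (6 * (w * 2 ^ j) - 7) / (4 * (7 * e + 28) + 1) ∧
    (7 * e + 28) * ((6 * (w * 2 ^ j) - 7) / (4 * (7 * e + 28) + 1)) ≤ 2 ^ e ∧
    7 + (4 * (7 * e + 28) + 1) * ((6 * (w * 2 ^ j) - 7) / (4 * (7 * e + 28) + 1)) ≤ 6 * (w * 2 ^ j) ∧
    w * 2 ^ (j - 1) ≤ (7 * e + 25) * ((6 * (w * 2 ^ j) - 7) / (4 * (7 * e + 28) + 1)) := by
  have h1 := f_lower w hw j hj
  have h2 := f_upper w hw j
  rw [hwj] at h1 h2
  set G := w * 2 ^ j with hG
  set y := 4 * (7 * e + 28) + 1 with hy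
  set x := 6 * G - 7 with hx
  set s := x / y with hs
  have hypos : 0 < y := by omega
  have hxy : y ≤ x := by omega
  have hspos : 0 < s := Nat.div_pos hxy hypos
  have h3 : y * s ≤ x := Nat.mul_div_le x y
  have h4 : x < y * s + y := by
    have h5 := Nat.div_add_mod x y
    have h6 := Nat.mod_lt x hypos
    rw [← hs] at h5
    omega
  have h5 : y ≤ y * s := Nat.le_mul_of_pos_right y hspos
  have hbs : 4 * ((7 * e + 28) * s) + s = y * s := by
    rw [hy]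
    ring
  have has : y * s = 4 * ((7 * e + 25) * s) + 13 * s := by
    rw [hy]
    ring
  have has2 : 13 ≤ 7 * e + 25 := by omega
  have has3 : 13 * s ≤ (7 * e + 25) * s := Nat.mul_le_mul_right s has2
  have hG2 : G = 2 * (w * 2 ^ (j - 1)) := by
    obtain ⟨i, rfl⟩ : ∃ i, j = i + 1 := ⟨j - 1, by omega⟩
    rw [hG]
    simp only [Nat.add_sub_cancel]
    ring
  refine ⟨hspos, ?_, ?_, ?_⟩
  · omega
  · omega
  · omega

/-- The invariant of the schedule. -/
def Inv (e F0 M : ℕ) (H : Finset ℕ) (c X : ℕ) : Prop :=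
  ∃ U ⊆ primesIn (7 * e + 25) \ H, #U ≤ c * 2 ^ e ∧ 2 ^ X ≤ F0 * ∏ p ∈ U, p ∧
    CovT (F0 * ∏ p ∈ U, p) (F0 * (∏ p ∈ U, p) * (60 * (∏ p ∈ H, p) * ∏ p ∈ H, p))
      (M + 6 * c)

lemma Inv.anti {e F0 M c X X' : ℕ} {H : Finset ℕ} (h : Inv e F0 M H c X) (hX : X' ≤ X) :
    Inv e F0 M H c X' := by
  obtain ⟨U, h1, h2, h3, h4⟩ := h
  exact ⟨U, h1, h2, (Nat.pow_le_pow_right (by norm_num) hX).trans h3, h4⟩

/-- The room in the prime pool. -/
lemma room (e c s : ℕ) (he : 8 ≤ e) (hc : c ≤ 2 ^ (2 * e + 3)) (hs : s ≤ 2 ^ e)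
    (H U : Finset ℕ) (hH : H ⊆ primesIn (7 * e + 25)) (cH : #H = 2 ^ e)
    (hU : U ⊆ primesIn (7 * e + 25) \ H) (cU : #U ≤ c * 2 ^ e) :
    2 ^ (7 * e + 25) ≤ 4 * (7 * e + 28) * (#((primesIn (7 * e + 25) \ H) \ U) - s) := by
  set PP := primesIn (7 * e + 25) with hPP
  set a := 7 * e + 25 with ha
  set b := 7 * e + 28 with hb
  set g := 2 ^ e with hg
  have hcount : 2 ^ a ≤ a * #PP := prime_count a (by omega)
  have hcard : #((PP \ H) \ U) = #PP - #H - #U := by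
    rw [Finset.card_sdiff_of_subset hU, Finset.card_sdiff_of_subset hH]
  have hbg : b ≤ g := two_pow_ge e (by omega)
  set K := (c + 2) * g with hK
  have hK1 : #H + #U + s ≤ K := by
    rw [cH]
    have : (c + 2) * g = c * g + 2 * g := by ring
    omega
  have hK2 : 4 * b * K ≤ 2 ^ a := by
    have h1 : c + 2 ≤ 2 ^ (2 * e + 4) := by
      have h2 : 2 ^ (2 * e + 4) = 2 * 2 ^ (2 * e + 3) := by ring
      have h3 : 4 ≤ 2 ^ (2 * e + 3) := by
        calc 4 = 2 ^ 2 := by norm_num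
          _ ≤ 2 ^ (2 * e + 3) := Nat.pow_le_pow_right (by norm_num) (by omega)
      omega
    calc 4 * b * K ≤ 4 * g * (2 ^ (2 * e + 4) * g) := by
          rw [hK]
          gcongr
      _ = 2 ^ (4 * e + 6) := by
          rw [hg]
          ring
      _ ≤ 2 ^ a := Nat.pow_le_pow_right (by norm_num) (by omega)
  have h1 : #PP - K ≤ #((PP \ H) \ U) - s := by
    rw [hcard]
    omega
  refine le_trans ?_ (Nat.mul_le_mul_left _ h1)
  rw [Nat.mul_sub]
  have h4 : a * #PP ≤ b * #PP := Nat.mul_le_mul_right _ (by omega)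
  have h5 : 4 * b * #PP = 4 * (b * #PP) := by ring
  omega

/-- One stage of the schedule. -/
theorem inv_step (e F0 M : ℕ) (H : Finset ℕ) (he : 8 ≤ e) (hH : H ⊆ primesIn (7 * e + 25))
    (cH : #H = 2 ^ e) (w j : ℕ) (hw : 1 ≤ w) (hj : 4 ≤ j) (hwj : w + j = e) (c X : ℕ)
    (hI : Inv e F0 M H c X) (hX : 2 * (7 * e + 28) * 2 ^ j + 5 ≤ X) (hc : c ≤ 2 ^ (2 * e + 3)) :
    Inv e F0 M H (c + 1) (X + w * 2 ^ (j - 1)) := by
  classical
  obtain ⟨U, hU, cU, hT, hcov⟩ := hI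
  obtain ⟨hs0, hbs, hs7, hgain⟩ := sched_facts e w j he hw hj hwj
  set s := (6 * (w * 2 ^ j) - 7) / (4 * (7 * e + 28) + 1) with hs
  set a := 7 * e + 25 with ha
  set b := 7 * e + 28 with hb
  set G0 := w * 2 ^ j with hG0
  set L := 2 ^ (b * 2 ^ j) with hL
  have hab : a + 3 = b := by omega
  have hPP : ∀ p ∈ primesIn a, p.Prime ∧ 2 ^ a < p ∧ p ≤ 2 ^ b := by
    intro p hp
    have := mem_primesIn.mp hp
    rw [hab] at this
    exact this
  have hHp : ∀ p ∈ H, p.Prime ∧ 2 ^ a < p ∧ p ≤ 2 ^ b := fun p hp => hPP p (hH hp)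
  have hHprime : ∀ p ∈ H, p.Prime := fun p hp => (hHp p hp).1
  have h8a : 8 ≤ 2 ^ a := by
    calc 8 = 2 ^ 3 := by norm_num
      _ ≤ 2 ^ a := Nat.pow_le_pow_right (by norm_num) (by omega)
  -- the digit sets
  have hcardz : 2 ^ G0 ≤ #(spz H (2 ^ j)) := by
    rw [card_spz hHprime, cH, ← hwj]
    exact two_pow_le_choose w j
  obtain ⟨A, hA, cA⟩ := Finset.exists_subset_card_eq hcardz
  have hprodpos : 0 < ∏ p ∈ H, p := prod_pos_of_prime hHprime
  have pA : ∀ x ∈ A, 0 < x ∧ x ≤ L ∧ Nat.Coprime 60 x := by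
    intro x hx
    have hx' := hA hx
    refine ⟨Nat.pos_of_dvd_of_pos (mem_spz_dvd hx') hprodpos,
      mem_spz_le (fun p hp => (hHp p hp).2.2) hx', ?_⟩
    have h1 : Nat.Coprime 60 (∏ p ∈ H, p) := by
      apply Nat.Coprime.prod_right
      intro p hp
      obtain ⟨h2, h3, _⟩ := hHp p hp
      apply Nat.Coprime.symm
      apply (Nat.Prime.coprime_iff_not_dvd h2).mpr
      intro hd
      have h4 : p ∣ 2 ^ 2 * 3 * 5 := by norm_num; exact hd
      rcases (Nat.Prime.dvd_mul h2).mp h4 with h5 | h5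
      · rcases (Nat.Prime.dvd_mul h2).mp h5 with h6 | h6
        · have h7 := h2.dvd_of_dvd_pow h6
          have := Nat.le_of_dvd (by norm_num) h7
          omega
        · have := Nat.le_of_dvd (by norm_num) h6
          omega
      · have := Nat.le_of_dvd (by norm_num) h5
        omega
    exact Nat.Coprime.coprime_dvd_right (mem_spz_dvd hx') h1
  have hLbound : L ≤ 2 ^ (a * 2 ^ e) := by
    apply Nat.pow_le_pow_right (by norm_num)
    have h1 : 2 ^ e = 2 ^ w * 2 ^ j := by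
      rw [← hwj]
      ring
    have h2 : 2 ≤ 2 ^ w := by
      calc 2 = 2 ^ 1 := by norm_num
        _ ≤ 2 ^ w := Nat.pow_le_pow_right (by norm_num) hw
    calc b * 2 ^ j ≤ (a * 2) * 2 ^ j := by
          apply Nat.mul_le_mul_right
          omega
      _ ≤ (a * 2 ^ w) * 2 ^ j := by gcongr
      _ = a * 2 ^ e := by rw [h1]; ring
  set P := (primesIn a \ H) \ U with hPdef
  have hP : ∀ p ∈ P, p.Prime ∧ 2 ^ a < p ∧ p ≤ 2 ^ b := fun p hp =>
    hPP p (Finset.mem_sdiff.mp (Finset.mem_sdiff.mp hp).1).1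
  have hPA : ∀ p ∈ P, ∀ x ∈ A, ¬ p ∣ x := by
    intro p hp x hx hd
    have h1 : p ∣ ∏ q ∈ H, q := hd.trans (mem_spz_dvd (hA hx))
    obtain ⟨q, hq, hq'⟩ := (Prime.dvd_finsetProd_iff (hP p hp).1.prime _).mp h1
    have h2 := (Nat.prime_dvd_prime_iff_eq (hP p hp).1 (hHprime q hq)).mp hq'
    rw [h2] at hp
    exact (Finset.mem_sdiff.mp (Finset.mem_sdiff.mp hp).1).2 hq
  have hsg : s ≤ 2 ^ e := by
    have hbpos : 0 < b := by omega
    exact (Nat.le_mul_of_pos_left s hbpos).trans hbs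
  have hroom := room e c s he hc hsg H U hH cH hU cU
  set F := F0 * ∏ p ∈ U, p with hF
  have hTL : 21 * L * L ≤ F := by
    have h1 : 21 * L * L ≤ 2 ^ (2 * b * 2 ^ j + 5) := by
      have h2 : 2 ^ (2 * b * 2 ^ j + 5) = 32 * (L * L) := by
        rw [hL, ← pow_add, pow_add]
        have : 2 * b * 2 ^ j = b * 2 ^ j + b * 2 ^ j := by ring
        rw [this]
        ring
      rw [h2]
      nlinarith [Nat.mul_pos (Nat.pos_of_ne_zero (by positivity : L ≠ 0))
        (Nat.pos_of_ne_zero (by positivity : L ≠ 0))]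
    exact h1.trans ((Nat.pow_le_pow_right (by norm_num) hX).trans hT)
  have hdvd : ∀ x ∈ A, ∀ y ∈ A, 60 * x * y ∣ F * (60 * (∏ p ∈ H, p) * ∏ p ∈ H, p) := by
    intro x hx y hy
    apply Dvd.dvd.mul_left
    exact Nat.mul_dvd_mul (Nat.mul_dvd_mul dvd_rfl (mem_spz_dvd (hA hx))) (mem_spz_dvd (hA hy))
  obtain ⟨S, hSP, hSc, hScov⟩ := covT_stage e (by omega) G0 s L hs0 hbs hs7 A A cA cA pA pA hLbound
    P hP hPA hPA hroom F (F * (60 * (∏ p ∈ H, p) * ∏ p ∈ H, p)) (M + 6 * c) hcov hTL hdvd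
  have hdisj : Disjoint U S := Finset.disjoint_of_subset_right hSP Finset.disjoint_sdiff
  have hprodS : (∏ p ∈ U ∪ S, p) = (∏ p ∈ U, p) * ∏ p ∈ S, p := Finset.prod_union hdisj
  have hF' : F0 * ∏ p ∈ U ∪ S, p = (∏ p ∈ S, p) * F := by
    rw [hprodS, hF]
    ring
  refine ⟨U ∪ S, Finset.union_subset hU ?_, ?_, ?_, ?_⟩
  · exact hSP.trans Finset.sdiff_subset
  · rw [Finset.card_union_of_disjoint hdisj, hSc]
    have : (c + 1) * 2 ^ e = c * 2 ^ e + 2 ^ e := by ring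
    omega
  · rw [hF', pow_add, mul_comm]
    apply Nat.mul_le_mul _ hT
    calc 2 ^ (w * 2 ^ (j - 1)) ≤ 2 ^ (a * s) := Nat.pow_le_pow_right (by norm_num) hgain
      _ = (2 ^ a) ^ #S := by rw [hSc, pow_mul]
      _ = ∏ _p ∈ S, 2 ^ a := by rw [Finset.prod_const]
      _ ≤ ∏ p ∈ S, p := Finset.prod_le_prod' fun p hp => (hP p (hSP hp)).2.1.le
  · have h1 : M + 6 * (c + 1) = M + 6 * c + 6 := by ring
    rw [hF', h1, mul_assoc (∏ p ∈ S, p) F]
    exact hScov

/-- A sequence of stages at the same scale. -/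
theorem inv_loop (e F0 M : ℕ) (H : Finset ℕ) (he : 8 ≤ e) (hH : H ⊆ primesIn (7 * e + 25))
    (cH : #H = 2 ^ e) (w j : ℕ) (hw : 1 ≤ w) (hj : 4 ≤ j) (hwj : w + j = e) (c X : ℕ)
    (hI : Inv e F0 M H c X) (hX : 2 * (7 * e + 28) * 2 ^ j + 5 ≤ X) (r : ℕ)
    (hc : c + r ≤ 2 ^ (2 * e + 3)) :
    Inv e F0 M H (c + r) (X + r * (w * 2 ^ (j - 1))) := by
  induction r with
  | zero => simpa using hI
  | succ r ih =>
    have h1 := ih (by omega)
    have h2 := inv_step e F0 M H he hH cH w j hw hj hwj (c + r) _ h1 (by omega) (by omega)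
    have h3 : X + r * (w * 2 ^ (j - 1)) + w * 2 ^ (j - 1) = X + (r + 1) * (w * 2 ^ (j - 1)) := by
      ring
    rw [h3] at h2
    exact h2

/-- The number of stages used in the scales below `j`. -/
def cst (e j : ℕ) : ℕ := ∑ i ∈ Finset.Ico 4 j, (4 * (7 * e + 28) / (e - i) + 1)

lemma cst_succ (e j : ℕ) (hj : 4 ≤ j) :
    cst e (j + 1) = cst e j + (4 * (7 * e + 28) / (e - j) + 1) := by
  unfold cst
  rw [Finset.sum_Ico_succ_top hj]

lemma cst_mono (e : ℕ) {i j : ℕ} (hij : i ≤ j) : cst e i ≤ cst e j := by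
  unfold cst
  exact Finset.sum_le_sum_of_subset (Finset.Ico_subset_Ico le_rfl hij)

/-- The base of the schedule. -/
lemma base_cov (n : ℕ) (hn : 4 ≤ n) : ∃ F0, CovT F0 F0 n ∧ 2 ^ n ≤ F0 := by
  refine ⟨n.factorial, cov_factorial n, ?_⟩
  induction n, hn using Nat.le_induction with
  | base => decide
  | succ m hm ih =>
    rw [Nat.factorial_succ, pow_succ, mul_comm]
    exact Nat.mul_le_mul (by omega) ih

/-- The phases. -/
theorem inv_all (e F0 M : ℕ) (hF0 : CovT F0 F0 M)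
    (hF1 : 2 ^ (32 * (7 * e + 28) + 5) ≤ F0) (H : Finset ℕ) (he : 8 ≤ e)
    (hH : H ⊆ primesIn (7 * e + 25))
    (cH : #H = 2 ^ e) (hcmax : cst e e ≤ 2 ^ (2 * e + 3)) (j : ℕ) (hj : 4 ≤ j) (hje : j ≤ e) :
    Inv e F0 M H (cst e j) (2 * (7 * e + 28) * 2 ^ j + 5) := by
  induction j, hj using Nat.le_induction with
  | base =>
    refine ⟨∅, Finset.empty_subset _, by simp, ?_, ?_⟩
    · simp only [Finset.prod_empty, mul_one]
      have h3 : 2 * (7 * e + 28) * 2 ^ 4 + 5 = 32 * (7 * e + 28) + 5 := by ring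
      rw [h3]
      exact hF1
    · simp only [Finset.prod_empty, mul_one]
      have h1 : cst e 4 = 0 := by simp [cst]
      rw [h1]
      exact CovT.mono hF0 (Dvd.intro _ rfl) (by omega)
  | succ j hj ih =>
    have h1 := ih (by omega)
    obtain ⟨w, hw⟩ : ∃ w, w = e - j := ⟨_, rfl⟩
    have hw1 : 1 ≤ w := by omega
    have hwj : w + j = e := by omega
    have h2 := inv_loop e _ _ H he hH cH w j hw1 hj hwj _ _ h1 le_rfl
      (4 * (7 * e + 28) / w + 1) (by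
        have h3 := cst_mono e (show j + 1 ≤ e by omega)
        rw [cst_succ e j hj, ← hw] at h3
        omega)
    rw [cst_succ e j hj, ← hw]
    refine h2.anti ?_
    set b := 7 * e + 28 with hb
    have h3 : 4 * b ≤ (4 * b / w + 1) * w := by
      have h4 := Nat.div_add_mod (4 * b) w
      have h5 := Nat.mod_lt (4 * b) (show 0 < w by omega)
      have h6 : (4 * b / w + 1) * w = w * (4 * b / w) + w := by ring
      omega
    have h4 : 2 ^ j = 2 * 2 ^ (j - 1) := by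
      obtain ⟨i, rfl⟩ : ∃ i, j = i + 1 := ⟨j - 1, by omega⟩
      simp only [Nat.add_sub_cancel]
      ring
    have h5 : 2 * b * 2 ^ (j + 1) = 2 * b * 2 ^ j + 4 * b * 2 ^ (j - 1) := by
      rw [pow_succ, h4]
      ring
    have h6 : 4 * b * 2 ^ (j - 1) ≤ (4 * b / w + 1) * (w * 2 ^ (j - 1)) := by
      calc 4 * b * 2 ^ (j - 1) ≤ ((4 * b / w + 1) * w) * 2 ^ (j - 1) := Nat.mul_le_mul_right _ h3
        _ = _ := by ring
    omega

lemma cst_le (e : ℕ) : cst e e ≤ e * (4 * (7 * e + 28) + 1) := by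
  unfold cst
  calc _ ≤ ∑ _i ∈ Finset.Ico 4 e, (4 * (7 * e + 28) + 1) := by
        apply Finset.sum_le_sum
        intro i _
        have := Nat.div_le_self (4 * (7 * e + 28)) (e - i)
        omega
    _ = (e - 4) * (4 * (7 * e + 28) + 1) := by
        rw [Finset.sum_const, Nat.card_Ico, smul_eq_mul]
    _ ≤ _ := Nat.mul_le_mul_right _ (by omega)

lemma cst_max (e : ℕ) (he : 8 ≤ e) : cst e e + (8 * (7 * e + 28) + 13) ≤ 2 ^ (2 * e + 3) := by
  have hcst := cst_le e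
  have hbg : 7 * e + 28 ≤ 2 ^ e := two_pow_ge e (by omega)
  have h5 : 84 ≤ 7 * e + 28 := by omega
  have h6 : e ≤ 7 * e + 28 := by omega
  have h7 : e * (4 * (7 * e + 28) + 1) ≤ (7 * e + 28) * (4 * (7 * e + 28) + 1) :=
    Nat.mul_le_mul_right _ h6
  generalize 7 * e + 28 = b at *
  have h2 : 2 ^ (2 * e + 3) = 8 * (2 ^ e * 2 ^ e) := by ring
  have h3 : b * b ≤ 2 ^ e * 2 ^ e := Nat.mul_le_mul hbg hbg
  have h4 : b * (4 * b + 1) = 4 * (b * b) + b := by ring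
  have h8 : 84 * b ≤ b * b := Nat.mul_le_mul_right _ h5
  omega

/-- The rich covering. -/
theorem richCov (e : ℕ) (he : 8 ≤ e) :
    ∃ T R0 k : ℕ, CovT T (T * R0) k ∧ 0 < T ∧ 1 ≤ R0 ∧
      R0 ≤ 2 ^ (2 * (7 * e + 28) * 2 ^ e + 6) ∧
      2 ^ ((4 * (7 * e + 28) + 3) * 2 ^ e + 12) ≤ T ∧
      k ≤ 80 * (7 * e + 28) + 83 + 6 * cst e e := by
  classical
  have hcount : 2 ^ (7 * e + 25) ≤ (7 * e + 25) * #(primesIn (7 * e + 25)) :=
    prime_count _ (by omega)
  have hbg : 7 * e + 28 ≤ 2 ^ e := two_pow_ge e (by omega)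
  have hcardH : 2 ^ e ≤ #(primesIn (7 * e + 25)) := by
    by_contra hlt
    have h1 : #(primesIn (7 * e + 25)) < 2 ^ e := by omega
    have h2 : (7 * e + 25) * #(primesIn (7 * e + 25)) ≤ 2 ^ e * 2 ^ e :=
      Nat.mul_le_mul (by omega) h1.le
    have h3 : 2 ^ e * 2 ^ e < 2 ^ (7 * e + 25) := by
      rw [← pow_add]
      exact Nat.pow_lt_pow_right (by norm_num) (by omega)
    omega
  obtain ⟨H, hH, cH⟩ := Finset.exists_subset_card_eq hcardH
  have hmax := cst_max e he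
  obtain ⟨F0, hF0, hF1⟩ := base_cov (32 * (7 * e + 28) + 5) (by omega)
  have hall := inv_all e F0 _ hF0 hF1 H he hH cH (by omega) e (by omega) le_rfl
  have hpow : 2 * (7 * e + 28) * 2 ^ (e - 1) ≤ 2 * (7 * e + 28) * 2 ^ e :=
    Nat.mul_le_mul_left _ (Nat.pow_le_pow_right (by norm_num) (by omega))
  have hfin := inv_loop e _ _ H he hH cH 1 (e - 1) le_rfl (by omega) (by omega) _ _ hall
    (by omega) (8 * (7 * e + 28) + 13) hmax
  obtain ⟨U, _, _, hT, hcov⟩ := hfin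
  have hHprime : ∀ p ∈ H, p.Prime := fun p hp => (mem_primesIn.mp (hH hp)).1
  have hHle : ∀ p ∈ H, p ≤ 2 ^ (7 * e + 28) := fun p hp => by
    have := (mem_primesIn.mp (hH hp)).2.2
    exact this
  have hprodpos : 0 < ∏ p ∈ H, p := prod_pos_of_prime hHprime
  generalize hF : F0 * ∏ p ∈ U, p = F at hT hcov
  have hUprod : 0 < F := lt_of_lt_of_le (Nat.pos_of_ne_zero (by positivity)) hT
  have hk : 32 * (7 * e + 28) + 5 + 6 * (cst e e + (8 * (7 * e + 28) + 13)) ≤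
      80 * (7 * e + 28) + 83 + 6 * cst e e := by
    omega
  refine ⟨F, 60 * (∏ p ∈ H, p) * ∏ p ∈ H, p, _, hcov, hUprod, ?_, ?_, ?_, hk⟩
  · exact Nat.mul_pos (Nat.mul_pos (by norm_num) hprodpos) hprodpos
  · have h1 : ∏ p ∈ H, p ≤ 2 ^ ((7 * e + 28) * 2 ^ e) := by
      have := prod_le_two_pow hHle
      rwa [cH] at this
    calc 60 * (∏ p ∈ H, p) * ∏ p ∈ H, p
        ≤ 64 * 2 ^ ((7 * e + 28) * 2 ^ e) * 2 ^ ((7 * e + 28) * 2 ^ e) := by
          gcongr
          norm_num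
      _ = 2 ^ (2 * (7 * e + 28) * 2 ^ e + 6) := by
          have : 2 * (7 * e + 28) * 2 ^ e = (7 * e + 28) * 2 ^ e + (7 * e + 28) * 2 ^ e := by ring
          rw [this, pow_add, pow_add]
          norm_num
          ring
  · refine le_trans (Nat.pow_le_pow_right (by norm_num) ?_) hT
    have h1 : 2 ^ e = 4 * 2 ^ (e - 1 - 1) := by
      obtain ⟨i, rfl⟩ : ∃ i, e = i + 2 := ⟨e - 2, by omega⟩
      simp only [show i + 2 - 1 - 1 = i by omega]
      ring
    have h2 : 8 ≤ 2 ^ (e - 1 - 1) := by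
      calc 8 = 2 ^ 3 := by norm_num
        _ ≤ 2 ^ (e - 1 - 1) := Nat.pow_le_pow_right (by norm_num) (by omega)
    rw [h1]
    generalize 2 ^ (e - 1 - 1) = y at *
    generalize 7 * e + 28 = b at *
    have h3 : (4 * b + 3) * (4 * y) + 12 + (y - 7) = 2 * b * (4 * y) + 5 + (8 * b + 13) * (1 * y) := by
      have : y = (y - 7) + 7 := by omega
      generalize y - 7 = v at *
      subst this
      ring
    omega

end Vale.Agent.Lib.P012b
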